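import Vale.Agent.P223A.Top
import Vale.Agent.P223Y.Main
import Vale.Agent.P223G.Pnt
import Vale.Agent.P223U.Evt
import Vale.Agent.P223D.Pa
import Vale.Agent.P223P.Ff
import Vale.Agent.P223Q.Pos
import Vale.Agent.P223K.Bls
import Vale.Agent.P223N.Cnt
import Vale.Agent.P223O.Amp
import Vale.Agent.P223B.Swp
import Vale.Agent.P223B.Amp

/-!
# P223I: the assembly (helper1)
-/

namespace Vale.Agent.P223I

theorem q1_of {n : ℕ} (hn : 3 ≤ n) (st : P223B.ST1 n) : P223Y.Q1 n :=
  P223Y.q1_of hn (P223A.goal_of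
    (P223D.pa_of st (P223B.amp (P223B.swp (P223O.loc (by omega)))))
    (P223G.pnt (P223U.evt (by omega))) (P223P.ff n) (P223Q.pos hn)
    (P223K.bls (by omega)) (P223N.cnt (by omega)))

end Vale.Agent.P223I
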