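import Vale.Agent.P223I.All
import Vale.Agent.P223Y.St
import Vale.Agent.P223O.Fst
import Vale.Agent.P223C.Rnd
import Vale.Agent.P223W.Swf
import Vale.Agent.P223D.Inn
import Vale.Agent.P223T.Lst

/-!
# P223I: the first stage and the question (helper1)
-/

namespace Vale.Agent.P223I

theorem st1 {n : ℕ} (hn : 3 ≤ n) : P223B.ST1 n :=
  P223Y.st1 (P223O.fst (by omega) P223T.lst) (P223C.rnd (P223W.swf_of P223D.inn (by omega)))

theorem q1 {n : ℕ} (hn : 3 ≤ n) : P223Y.Q1 n := q1_of hn (st1 hn)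

end Vale.Agent.P223I
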